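import Vale.Agent.P050.H148.Defs

/-!
Statement-level definitions.
-/

namespace Vale.Agent.P050.H546

open Vale.Agent.P050.H148

/-- The graph `moebiusLadder k` without the edges between `(i, false)` and `(i, true)`, for
`i = 0, ..., t - 1` modulo `k`: for odd `k ≥ 3` and `t ≤ k`, the Moebius ladder with `k` rungs,
`t` consecutive rungs being deleted. -/
def cutLadder (k t : ℕ) : SimpleGraph (ZMod k × Bool) :=
  (moebiusLadder k).deleteEdges
    {e | ∃ i : ℕ, i < t ∧ e = s(((i : ZMod k), false), ((i : ZMod k), true))}

end Vale.Agent.P050.H546
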