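import Vale.Agent.P050.H546.Xat
import Vale.Agent.P050.H546.GDefs

/-!
The statements for `t` consecutive deleted rungs; `L = t + 2`.
-/

set_option linter.unusedSectionVars false

namespace Vale.Agent.P050.H546

open Finset Vale.Agent.P050.H148 Vale.Agent.P050.Cart Vale.Agent.P050.M18

/-- the weight of the two paths of length `j` which join `b = (s_0, d_0)` and `a = (s_m, d_m)`
crosswise -/
def cj {U : Type} [Fintype U] [DecidableEq U] (A : U → U → ℝ) (j : ℕ) (b a : U × U) : ℝ :=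
  zp A j b.2 a.1 * zp A j b.1 a.2

/-- the number of Moebius ladders with `2 n + 2 t + 5` rungs, without `t` consecutive rungs,
`L = t + 2` -/
def nL {U : Type} [Fintype U] [DecidableEq U] (C : U × U → U × U → ℝ) (A : U → U → ℝ)
    (n L : ℕ) : ℝ :=
  ∑ R, ∑ a, ∑ b, zp C (n + 1) R a * zp C (n + L + 1) R b * cj A (L - 1) b a

/-- [GG] the graph side: `k = m + 1 + t` is odd -/
def GGraphStmt : Prop := ∀ (X : Type) [Fintype X] [Nonempty X] [DecidableEq X] (G : SimpleGraph X)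
  (m t : ℕ), 1 ≤ m → 1 ≤ t → Odd (m + 1 + t) →
  homDensity (cutLadder (m + 1 + t) t) G * (Fintype.card X : ℝ) ^ (2 * (m + 1 + t)) =
    ∑ b, ∑ a, zp (CG G) m b a * cj (adj G) (t + 1) b a

/-- the law of the ends of a walk of length `j` -/
noncomputable def EE {U : Type} [Fintype U] [DecidableEq U] (Q : U × U → ℝ) (j : ℕ)
    (x : U × U) : ℝ := mm Q x.1 * zp (nb Q) j x.1 x.2

/-- its entropy -/
noncomputable def hh {U : Type} [Fintype U] [DecidableEq U] (Q : U × U → ℝ) (j : ℕ) : ℝ :=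
  Cart.ent (EE Q j) (fun x => x)

/-- the law of a first edge and the end of a walk of length `j + 1` -/
noncomputable def FF {U : Type} [Fintype U] [DecidableEq U] (Q : U × U → ℝ) (j : ℕ) :
    (U × U) × U → ℝ := att Q (fun e => e.2) (zp (nb Q) j)

/-- the law of the centre rung `R`, of `a = (s_{m-1}, v)`, of `b = (s_1, u)`, of `d = d_0` and of
`e = d_m` -/
structure G2 {U Ω : Type} [Fintype U] [DecidableEq U] [Fintype Ω] (Q : U × U → ℝ) (n L : ℕ)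
    (P : Ω → ℝ) (R a b : Ω → U × U) (d e : Ω → U) : Prop where
  nn : ∀ ω, 0 ≤ P ω
  tot : ∑ ω, P ω = 1
  la : mar P (fun ω => (R ω, a ω)) = PP Q n
  lb : mar P (fun ω => (R ω, b ω)) = PP Q (n + L)
  sud : ∀ ω, P ω ≠ 0 → Q ((b ω).2, d ω) ≠ 0
  sve : ∀ ω, P ω ≠ 0 → Q ((a ω).2, e ω) ≠ 0
  lue : mar P (fun ω => ((b ω).2, e ω)) = EE Q (L - 1)
  ldv : mar P (fun ω => (d ω, (a ω).2)) = EE Q (L - 1)
  ent : hP Q n + hP Q (n + L) + hh Q L - aQ Q - hB Q (n + L) +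
    2 * (hQ Q + hh Q (L - 1) - aQ Q - hh Q L) ≤ ent P (fun ω => (R ω, a ω, b ω, d ω, e ω))
  e1 : hB Q (n + 1) - hB Q (n + L) + 2 * hQ Q + 2 * hh Q (L - 1) - 2 * aQ Q - hh Q L ≤
    Cart.ent P (fun ω => (((b ω).1, d ω, e ω), (b ω).2))
  e2 : 2 * hQ Q + 2 * hh Q (L - 1) - 2 * aQ Q - hh Q L ≤
    Cart.ent P (fun ω => (((a ω).1, e ω, d ω), (a ω).2))

/-- [GE12] helper546 -/
def GBaseStmt : Prop := ∀ (U : Type) [Fintype U] [DecidableEq U] (Q : U × U → ℝ), Edge Q →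
  ∀ n L : ℕ, 2 ≤ L → ∃ (Ω : Type) (_ : Fintype Ω) (P : Ω → ℝ) (R a b : Ω → U × U) (d e : Ω → U),
    G2 Q n L P R a b d e

/-- [GV] the mean logarithm of the number of walks of length `j`: `val_step` for `A` and `att` with
`nb`, by induction on `j` -/
def GValStmt : Prop := ∀ (U : Type) [Fintype U] [DecidableEq U] (A : U → U → ℝ) (Q : U × U → ℝ),
  Edge Q → (∀ x y, 0 ≤ A x y) → (∀ x y, Q (x, y) ≠ 0 → A x y = 1) → ∀ j : ℕ,
  (∀ x, EE Q j x ≠ 0 → zp A j x.1 x.2 ≠ 0) ∧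
  aQ Q + j * (hQ Q - aQ Q) ≤ hh Q j + ∑ x, EE Q j x * Real.log (zp A j x.1 x.2)

/-- [GE3] attach `s_0` (a copy of `(b ω).2` given `((b ω).1, d ω, e ω)`) and `s_m` (a copy of
`(a ω).2` given `((a ω).1, e ω, d ω)`), then `ent_log_sum`, [GV] for `(d_0, s_m)`, `(s_0, d_m)` -/
def GCloseStmt : Prop := ∀ (U Ω : Type) [Fintype U] [DecidableEq U] [Fintype Ω]
  (C : U × U → U × U → ℝ) (A : U → U → ℝ) (Q : U × U → ℝ)
  (P : Ω → ℝ) (R a b : Ω → U × U) (d e : Ω → U) (n L : ℕ), 2 ≤ L → Edge Q → Four C Q →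
  (∀ x y, 0 ≤ A x y) → (∀ x y, Q (x, y) ≠ 0 → A x y = 1) → G2 Q n L P R a b d e →
  0 < nL C A n L ∧ (2 * n + L) * gQ Q + (2 * L + 6) * hQ Q + 4 * hh Q (L - 1) - 3 * hh Q L -
    (2 * L + 9) * aQ Q + hB Q (n + 1) - 2 * hB Q (n + L) ≤ Real.log (nL C A n L)

/-- [GI] `2 a ≥ h_j`, `h_2 = h2Q`, `h_j` increasing -/
def GInfStmt : Prop := ∀ (U : Type) [Fintype U] [DecidableEq U] (Q : U × U → ℝ), Edge Q →
  hh Q 2 = h2Q Q ∧ (∀ j, hh Q j ≤ 2 * aQ Q) ∧ (∀ j, hh Q j ≤ hh Q (j + 1)) ∧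
  (∀ j, hB Q j ≤ hQ Q + aQ Q)

/-- [GEnt] from all these -/
def GEntStmt : Prop := ∀ (U : Type) [Fintype U] [DecidableEq U] (C : U × U → U × U → ℝ)
  (A : U → U → ℝ) (Q : U × U → ℝ), Edge Q → Four C Q → (∀ x y, 0 ≤ A x y) →
  (∀ x y, Q (x, y) ≠ 0 → A x y = 1) → ∀ n t : ℕ, 1 ≤ n → 1 ≤ t →
  0 < nL C A n (t + 2) ∧ (6 * n + 5 * t + 15) * hQ Q - (8 * n + 6 * t + 20) * aQ Q ≤
    Real.log (nL C A n (t + 2))

/-- [GF] the theorem -/
def GFinalStmt : Prop := ∀ (X : Type) [Fintype X] [Nonempty X] (G : SimpleGraph X) (k t : ℕ),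
  Odd k → 1 ≤ t → 2 * t + 7 ≤ k → edgeDensity G ^ (3 * k - t) ≤ homDensity (cutLadder k t) G

end Vale.Agent.P050.H546
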