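import Vale.Agent.P050.H148.Defs

/-!
Statement-level definitions.
-/

namespace Vale.Agent.P050.H546

open Vale.Agent.P050.H148

/-- The graph `moebiusLadder k` without the edge between `(0, false)` and `(0, true)`: for odd
`k ≥ 3`, the Moebius ladder with `k` rungs, one rung being deleted. -/
def rungless (k : ℕ) : SimpleGraph (ZMod k × Bool) :=
  (moebiusLadder k).deleteEdges {s((0, false), (0, true))}

end Vale.Agent.P050.H546
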