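import Vale.Agent.P050.M18.Final
import Vale.Agent.P050.H546.Defs

/-!
The statements of the two halves.
-/

set_option linter.unusedSectionVars false

namespace Vale.Agent.P050.H546

open Finset Vale.Agent.P050.H148 Vale.Agent.P050.M18

/-- the number of pairs `w, w'` joining the ends `b = (s_0, d_0)` and `a = (s_m, d_m)` crosswise -/
def cc {U : Type} [Fintype U] (A : U → U → ℝ) (b a : U × U) : ℝ :=
  ∑ w, ∑ w', A w b.2 * A w a.1 * (A w' b.1 * A w' a.2)

/-- the number of Moebius ladders with `2 n + 7` rungs, without a rung -/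
def nh {U : Type} [Fintype U] [DecidableEq U] (C : U × U → U × U → ℝ) (A : U → U → ℝ) (n : ℕ) : ℝ :=
  ∑ R, ∑ a, ∑ b, zp C (n + 1) R a * zp C (n + 4) R b * cc A b a

/-- [G] the graph side -/
def GraphStmt : Prop := ∀ (X : Type) [Fintype X] [Nonempty X] [DecidableEq X] (G : SimpleGraph X)
  (m : ℕ), Odd m → homDensity (rungless (m + 2)) G * (Fintype.card X : ℝ) ^ (2 * (m + 2)) =
    ∑ b, ∑ a, zp (CG G) m b a * cc (adj G) b a

/-- [E] the entropy side -/
def EntStmt : Prop := ∀ (U : Type) [Fintype U] [DecidableEq U] (C : U × U → U × U → ℝ)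
  (A : U → U → ℝ) (Q : U × U → ℝ), Edge Q → Four C Q → (∀ x y, 0 ≤ A x y) →
  (∀ x y, Q (x, y) ≠ 0 → A x y = 1) → ∀ n : ℕ, 2 ≤ n →
  0 < nh C A n ∧ (6 * n + 20) * hQ Q - (8 * n + 26) * aQ Q ≤ Real.log (nh C A n)

/-- [F] the theorem -/
def FinalStmt : Prop := ∀ (X : Type) [Fintype X] [Nonempty X] (G : SimpleGraph X) (k : ℕ), Odd k →
  11 ≤ k → edgeDensity G ^ (3 * k - 1) ≤ homDensity (rungless k) G

end Vale.Agent.P050.H546
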