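import Vale.Agent.P050.H546.Walk3
import Vale.Agent.P050.H546.Spec

/-!
The three lemmas of the entropy side.
-/

set_option linter.unusedSectionVars false

namespace Vale.Agent.P050.H546

open Finset Vale.Agent.P050.H148 Vale.Agent.P050.Cart Vale.Agent.P050.M18

/-- the law of the centre rung `R`, of `a = (s_{m-1}, v)` and of `b = (s_1, u)` -/
structure B1 {U Ω : Type} [Fintype U] [Fintype Ω] (Q : U × U → ℝ) (n : ℕ) (P : Ω → ℝ)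
    (R a b : Ω → U × U) : Prop where
  nn : ∀ ω, 0 ≤ P ω
  tot : ∑ ω, P ω = 1
  la : mar P (fun ω => (R ω, a ω)) = PP Q n
  lb : mar P (fun ω => (R ω, b ω)) = PP Q (n + 3)
  luv : mar P (fun ω => ((b ω).2, (a ω).2)) = mar (W3 Q) (fun x => (x.1.1.1, x.2))
  ent : hP Q n + hP Q (n + 3) + h3Q Q - aQ Q - hB Q (n + 3) ≤ ent P (fun ω => (R ω, a ω, b ω))
  e1 : hB Q n - hB Q (n + 3) + h3Q Q - aQ Q + hQ Q ≤ Cart.ent P (fun ω => ((b ω).2, (a ω).2, (b ω).1))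
  e2 : hQ Q + h3Q Q - aQ Q ≤ Cart.ent P (fun ω => ((b ω).2, (a ω).2, (a ω).1))

/-- in addition `d = d_0` and `e = d_m` -/
structure B2 {U Ω : Type} [Fintype U] [Fintype Ω] (Q : U × U → ℝ) (n : ℕ) (P : Ω → ℝ)
    (R a b : Ω → U × U) (d e : Ω → U) : Prop where
  nn : ∀ ω, 0 ≤ P ω
  tot : ∑ ω, P ω = 1
  la : mar P (fun ω => (R ω, a ω)) = PP Q n
  lb : mar P (fun ω => (R ω, b ω)) = PP Q (n + 3)
  sud : ∀ ω, P ω ≠ 0 → Q ((b ω).2, d ω) ≠ 0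
  sve : ∀ ω, P ω ≠ 0 → Q ((a ω).2, e ω) ≠ 0
  lue : mar P (fun ω => ((b ω).2, e ω)) = mar (C3 Q) (fun x => (x.1.1, x.2))
  ldv : mar P (fun ω => (d ω, (a ω).2)) = mar (C3 Q) (fun x => (x.1.1, x.2))
  ent : hP Q n + hP Q (n + 3) + h3Q Q - aQ Q - hB Q (n + 3) +
    2 * (hQ Q + h2Q Q - aQ Q - h3Q Q) ≤ ent P (fun ω => (R ω, a ω, b ω, d ω, e ω))
  e1 : hB Q n - hB Q (n + 3) + 2 * hQ Q + 2 * h2Q Q - 2 * aQ Q - h3Q Q ≤
    Cart.ent P (fun ω => (((b ω).1, d ω, e ω), (b ω).2))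
  e2 : 2 * hQ Q + 2 * h2Q Q - 2 * aQ Q - h3Q Q ≤
    Cart.ent P (fun ω => (((a ω).1, e ω, d ω), (a ω).2))

/-- [E1] helper546 -/
def BaseStmt : Prop := ∀ (U : Type) [Fintype U] [DecidableEq U] (Q : U × U → ℝ), Edge Q →
  ∀ n : ℕ, ∃ (Ω : Type) (_ : Fintype Ω) (P : Ω → ℝ) (R a b : Ω → U × U), B1 Q n P R a b

/-- [E2] attach `d` and `e`: `xat` twice, from `W3`, given `(u, v)` -/
def MidStmt : Prop := ∀ (U Ω : Type) [Fintype U] [DecidableEq U] [Fintype Ω] (Q : U × U → ℝ)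
  (P : Ω → ℝ) (R a b : Ω → U × U) (n : ℕ), Edge Q → B1 Q n P R a b →
  B2 Q n (xat (xat P (fun ω => ((b ω).2, (a ω).2)) (W3 Q) (fun x => (x.1.1.1, x.2))
      (fun x => x.1.1.2)) (fun x => ((b x.1).2, (a x.1).2)) (W3 Q) (fun x => (x.1.1.1, x.2))
      (fun x => x.1.2)) (fun x => R x.1.1) (fun x => a x.1.1) (fun x => b x.1.1)
      (fun x => x.1.2) (fun x => x.2)

/-- [E3] attach `s_0`, `s_m` (twice `cop`), `w`, `w'` (twice `xat` from `C3`), and use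
`ent_log_sum` -/
def CloseStmt : Prop := ∀ (U Ω : Type) [Fintype U] [DecidableEq U] [Fintype Ω]
  (C : U × U → U × U → ℝ) (A : U → U → ℝ) (Q : U × U → ℝ)
  (P : Ω → ℝ) (R a b : Ω → U × U) (d e : Ω → U) (n : ℕ), Edge Q → Four C Q →
  (∀ x y, 0 ≤ A x y) → (∀ x y, Q (x, y) ≠ 0 → A x y = 1) → B2 Q n P R a b d e →
  0 < nh C A n ∧ (2 * n + 3) * gQ Q + 12 * hQ Q + 4 * h2Q Q - 3 * h3Q Q - 15 * aQ Q +
    hB Q n - 2 * hB Q (n + 3) ≤ Real.log (nh C A n)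

end Vale.Agent.P050.H546
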