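import Vale.Agent.P050.H546.GWalk

/-!
Two chains from a common rung, with a walk of length `L` between their ends.
-/

set_option linter.unusedSectionVars false

namespace Vale.Agent.P050.H546

open Finset Vale.Agent.P050.Cart Vale.Agent.P050.Join Vale.Agent.P050.M18

/-- the law of the centre rung `R`, of `a = (s_{m-1}, v)` and of `b = (s_1, u)` -/
structure G1 {U Ω : Type} [Fintype U] [DecidableEq U] [Fintype Ω] (Q : U × U → ℝ) (n L : ℕ)
    (P : Ω → ℝ) (R a b : Ω → U × U) : Prop where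
  nn : ∀ ω, 0 ≤ P ω
  tot : ∑ ω, P ω = 1
  la : mar P (fun ω => (R ω, a ω)) = PP Q n
  lb : mar P (fun ω => (R ω, b ω)) = PP Q (n + L)
  lu : ∀ r y z, mar P (fun ω => ((R ω, (a ω).2), (b ω).2)) ((r, y), z) =
    mar (PP Q n) (fun x => (x.1, x.2.2)) (r, y) * zp (nb Q) L y z
  lvu : mar P (fun ω => ((a ω).2, (b ω).2)) = EE Q L
  eA : Cart.ent P (fun ω => ((R ω, a ω), b ω)) =
    hP Q n + hh Q L - aQ Q + hP Q (n + L) - hB Q (n + L)
  eB : Cart.ent P (fun ω => ((R ω, (a ω).2), b ω)) =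
    hB Q n + hh Q L - aQ Q + hP Q (n + L) - hB Q (n + L)
  eC : Cart.ent P (fun ω => (a ω, (b ω).2)) = hQ Q + hh Q L - aQ Q

section one

variable {U : Type} [Fintype U] [DecidableEq U] {Q : U × U → ℝ}

/-- the chain of length `n` and the end of a walk of length `L` -/
noncomputable def Gc (Q : U × U → ℝ) (n L : ℕ) : ((U × U) × (U × U)) × U → ℝ :=
  att (PP Q n) (fun x => x.2.2) (zp (nb Q) L)

/-- the second chain -/
noncomputable def Gd (Q : U × U → ℝ) (n L : ℕ) : (((U × U) × (U × U)) × U) × U → ℝ :=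
  xat (Gc Q n L) (fun x => (x.1.1, x.2)) (PP Q (n + L)) (fun y => (y.1, y.2.2)) (fun y => y.2.1)

variable (hE : Edge Q) (n L : ℕ)

include hE

theorem PP_nn (x) : 0 ≤ PP Q n x := (PP_lab hE n).nn x

theorem PP_tot : ∑ x, PP Q n x = 1 := (PP_lab hE n).tot hE

theorem PP_v : mar (PP Q n) (fun x => x.2.2) = mm Q := by
  rw [(PP_lab hE n).mar_edge hE fun e => e.2, hE.mar_snd_Q]

theorem PP_one (x : (U × U) × (U × U)) (hx : PP Q n x ≠ 0) : ∑ b, zp (nb Q) L x.2.2 b = 1 :=
  kp_one hE L (hE.mm_ne (x := x.2.1) (y := x.2.2) ((PP_lab hE n).ne_zero hE hx)).2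

theorem Gc_nn (x) : 0 ≤ Gc Q n L x := att_nonneg (PP_nn hE n) (kp_nn hE L) x

theorem Gc_tot : ∑ x, Gc Q n L x = 1 := att_total (PP_tot hE n) (PP_one hE n L)

theorem Gc_fst {α : Type} (g : (U × U) × (U × U) → α) :
    mar (Gc Q n L) (fun x => g x.1) = mar (PP Q n) g := mar_att_fst (PP_one hE n L) g

theorem Gc_vu : mar (Gc Q n L) (fun x => (x.1.2.2, x.2)) = EE Q L := by
  funext ⟨y, z⟩
  have h : mar (Gc Q n L) (fun x => (x.1.2.2, x.2)) (y, z) =
      mar (PP Q n) (fun x => x.2.2) y * zp (nb Q) L y z :=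
    mar_att (P := PP Q n) (f := fun x => x.2.2) (K := zp (nb Q) L) (fun x => x.2.2)
      (fun y => y) (fun _ => rfl) y z
  rw [h, PP_v hE]
  rfl

theorem Gc_ent {α : Type} [Fintype α] (g : (U × U) × (U × U) → α) (k : α → U)
    (hk : ∀ x, x.2.2 = k (g x)) :
    ent (Gc Q n L) (fun x => (g x.1, x.2)) = ent (PP Q n) g + (hh Q L - aQ Q) := by
  have h1 := ent_att (P := PP Q n) (f := fun x => x.2.2) (K := zp (nb Q) L) (PP_nn hE n)
    (kp_nn hE L) (PP_one hE n L) g k hk
  have e1 : ent (att (PP Q n) (fun x => x.2.2) (zp (nb Q) L)) (fun x => (x.1.2.2, x.2)) =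
      hh Q L := by
    unfold hh
    refine ent_law fun a => ?_
    have := congrFun (Gc_vu hE n L) a
    rw [mar_id]
    exact this
  have e2 : ent (PP Q n) (fun x => x.2.2) = aQ Q := by
    unfold aQ
    refine ent_law fun a => ?_
    rw [PP_v hE, mar_id]
  have e3 : ent (Gc Q n L) (fun x => (g x.1, x.2)) =
    ent (att (PP Q n) (fun x => x.2.2) (zp (nb Q) L)) (fun x => (g x.1, x.2)) := rfl
  rw [e1, e2] at h1
  rw [e3]
  linarith

theorem Gc_hm : mar (Gc Q n L) (fun x => (x.1.1, x.2)) =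
    mar (PP Q (n + L)) (fun y => (y.1, y.2.2)) := by
  funext ⟨R, z⟩
  have h1 := att_mar2 (PP Q n) (fun x => x.2.2) (zp (nb Q) L) (fun x => x.1) R z
  rw [PPL hE]
  exact h1

theorem Gd_nn (x) : 0 ≤ Gd Q n L x := xat_nonneg _ (Gc_nn hE n L) (PP_nn hE (n + L)) x

theorem Gd_tot : ∑ x, Gd Q n L x = 1 := xat_total _ (Gc_nn hE n L) (Gc_hm hE n L) (Gc_tot hE n L)

theorem Gd_fst {α : Type} (g : ((U × U) × (U × U)) × U → α) :
    mar (Gd Q n L) (fun x => g x.1) = mar (Gc Q n L) g :=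
  xat_fst _ (Gc_nn hE n L) (Gc_hm hE n L) g

theorem Gd_ent_fst {α : Type} [Fintype α] (g : ((U × U) × (U × U)) × U → α) :
    ent (Gd Q n L) (fun x => g x.1) = ent (Gc Q n L) g :=
  xat_ent_fst _ (Gc_nn hE n L) (Gc_hm hE n L) g

theorem PP_ent_swap (m : ℕ) : ent (PP Q m) (fun y => ((y.1, y.2.2), y.2.1)) = hP Q m :=
  ent_same _ fun x y => by
    simp only [Prod.ext_iff]
    tauto

theorem Gd_ent {α : Type} [Fintype α] (g : ((U × U) × (U × U)) × U → α)
    (k : α → (U × U) × U) (hk : ∀ x, (x.1.1, x.2) = k (g x)) :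
    ent (Gd Q n L) (fun x => (g x.1, x.2)) =
      ent (Gc Q n L) g + (hP Q (n + L) - hB Q (n + L)) := by
  have h1 := xat_ent (P := Gc Q n L) (c := fun x => (x.1.1, x.2)) (P' := PP Q (n + L))
    (c' := fun y => (y.1, y.2.2)) (fun y => y.2.1) (Gc_nn hE n L) (PP_nn hE (n + L))
    (Gc_hm hE n L) g k hk
  have h2 := PP_ent_swap hE (n + L)
  have h3 : hB Q (n + L) = ent (PP Q (n + L)) (fun x => (x.1, x.2.2)) := rfl
  unfold Gd
  rw [h1, h2, h3]

theorem Gd_law : mar (Gd Q n L) (fun x => ((x.1.1.1, x.1.2), x.2)) =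
    mar (PP Q (n + L)) (fun y => ((y.1, y.2.2), y.2.1)) := by
  have h := xat_law (P := Gc Q n L) (c := fun x => (x.1.1, x.2)) (P' := PP Q (n + L))
    (c' := fun y => (y.1, y.2.2)) (fun y => y.2.1) (PP_nn hE (n + L)) (Gc_hm hE n L)
  unfold Gd
  exact h

theorem g1 : G1 Q n L (Gd Q n L) (fun x => x.1.1.1) (fun x => x.1.1.2)
    (fun x => (x.2, x.1.2)) where
  nn := Gd_nn hE n L
  tot := Gd_tot hE n L
  la := by
    have h1 := Gd_fst hE n L (fun x => (x.1.1, x.1.2))
    have h2 := Gc_fst hE n L (fun x => (x.1, x.2))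
    refine h1.trans (h2.trans ?_)
    funext a
    exact mar_id _ a
  lb := by
    have h1 : mar (Gd Q n L) (fun x => (x.1.1.1, (x.2, x.1.2))) =
        mar (mar (Gd Q n L) (fun x => ((x.1.1.1, x.1.2), x.2)))
          (fun y => (y.1.1, (y.2, y.1.2))) := by
      funext a
      rw [mar_mar]
    rw [h1, Gd_law hE n L]
    funext a
    rw [mar_mar]
    exact mar_id _ a
  lu := by
    intro r y z
    have h1 := congrFun (Gd_fst hE n L (fun x => ((x.1.1, x.1.2.2), x.2))) ((r, y), z)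
    have h2 := mar_att (P := PP Q n) (f := fun x => x.2.2) (K := zp (nb Q) L)
      (fun x => (x.1, x.2.2)) (fun y => y.2) (fun _ => rfl) (r, y) z
    exact h1.trans h2
  lvu := (Gd_fst hE n L (fun x => (x.1.2.2, x.2))).trans (Gc_vu hE n L)
  eA := by
    have h1 := Gd_ent hE n L (fun x => (x.1, x.2)) (fun y => (y.1.1, y.2)) (fun _ => rfl)
    have h2 := Gc_ent hE n L (fun x => x) (fun x => x.2.2) (fun _ => rfl)
    have h3 : ent (Gd Q n L) (fun x => ((x.1.1.1, x.1.1.2), (x.2, x.1.2))) =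
        ent (Gd Q n L) (fun x => ((x.1.1, x.1.2), x.2)) := ent_same _ fun x y => by
      simp only [Prod.ext_iff]
      tauto
    have h4 : hP Q n = ent (PP Q n) (fun x => x) := rfl
    rw [h3, h1, h2, h4]
    ring
  eB := by
    have h1 := Gd_ent hE n L (fun x => ((x.1.1, x.1.2.2), x.2)) (fun y => (y.1.1, y.2))
      (fun _ => rfl)
    have h2 := Gc_ent hE n L (fun x => (x.1, x.2.2)) (fun y => y.2) (fun _ => rfl)
    have h3 : ent (Gd Q n L) (fun x => ((x.1.1.1, x.1.1.2.2), (x.2, x.1.2))) =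
        ent (Gd Q n L) (fun x => (((x.1.1.1, x.1.1.2.2), x.1.2), x.2)) :=
      ent_same _ fun x y => by
        simp only [Prod.ext_iff]
        tauto
    have h4 : hB Q n = ent (PP Q n) (fun x => (x.1, x.2.2)) := rfl
    rw [h3, h1, h2, h4]
    ring
  eC := by
    have h1 := Gd_ent_fst hE n L (fun x => (x.1.2, x.2))
    have h2 := Gc_ent hE n L (fun x => x.2) (fun y => y.2) (fun _ => rfl)
    have h3 : ent (PP Q n) (fun x => x.2) = hQ Q := (PP_lab hE n).ent_edge hE fun e => e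
    refine h1.trans (h2.trans ?_)
    rw [h3]
    ring

end one

section two

variable {U Ω : Type} [Fintype U] [DecidableEq U] [Fintype Ω] {Q : U × U → ℝ} {P : Ω → ℝ}
  {R a b : Ω → U × U}

/-- attach `d` -/
noncomputable def He (Q : U × U → ℝ) (l : ℕ) (P : Ω → ℝ) (a b : Ω → U × U) : Ω × U → ℝ :=
  xat P (fun ω => ((b ω).2, (a ω).2)) (FF Q l) (fun x => (x.1.1, x.2)) (fun x => x.1.2)

/-- attach `e` -/
noncomputable def Hf (Q : U × U → ℝ) (l : ℕ) (P : Ω → ℝ) (a b : Ω → U × U) : (Ω × U) × U → ℝ :=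
  xat (He Q l P a b) (fun x => ((a x.1).2, (b x.1).2)) (FF Q l) (fun x => (x.1.1, x.2))
    (fun x => x.1.2)

variable (hE : Edge Q) {n l : ℕ} (h : G1 Q n (l + 1) P R a b)

include hE h

theorem hmd : mar P (fun ω => ((b ω).2, (a ω).2)) = mar (FF Q l) (fun x => (x.1.1, x.2)) := by
  rw [FF_0z hE, EE_swap hE h.lvu]

theorem He_nn (x) : 0 ≤ He Q l P a b x := xat_nonneg _ h.nn (FF_nn hE l) x

theorem He_tot : ∑ x, He Q l P a b x = 1 := xat_total _ h.nn (hmd hE h) h.tot

theorem He_fst {α : Type} (g : Ω → α) : mar (He Q l P a b) (fun x => g x.1) = mar P g :=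
  xat_fst _ h.nn (hmd hE h) g

theorem hme : mar (He Q l P a b) (fun x => ((a x.1).2, (b x.1).2)) =
    mar (FF Q l) (fun x => (x.1.1, x.2)) := by
  rw [FF_0z hE, He_fst hE h (fun ω => ((a ω).2, (b ω).2)), h.lvu]

theorem Hf_nn (x) : 0 ≤ Hf Q l P a b x := xat_nonneg _ (He_nn hE h) (FF_nn hE l) x

theorem Hf_tot : ∑ x, Hf Q l P a b x = 1 := xat_total _ (He_nn hE h) (hme hE h) (He_tot hE h)

theorem Hf_fst {α : Type} (g : Ω × U → α) :
    mar (Hf Q l P a b) (fun x => g x.1) = mar (He Q l P a b) g :=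
  xat_fst _ (He_nn hE h) (hme hE h) g

theorem Hf_fst2 {α : Type} (g : Ω → α) :
    mar (Hf Q l P a b) (fun x => g x.1.1) = mar P g :=
  (Hf_fst hE h (fun x => g x.1)).trans (He_fst hE h g)

theorem Hf_ent2 {α : Type} [Fintype α] (g : Ω → α) :
    ent (Hf Q l P a b) (fun x => g x.1.1) = ent P g := by
  unfold ent
  rw [Hf_fst2 hE h g]

theorem He_law : mar (He Q l P a b) (fun x => (((b x.1).2, (a x.1).2), x.2)) =
    mar (FF Q l) (fun x => ((x.1.1, x.2), x.1.2)) := by
  have h1 := xat_law (P := P) (c := fun ω => ((b ω).2, (a ω).2)) (P' := FF Q l)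
    (c' := fun x => (x.1.1, x.2)) (fun x => x.1.2) (FF_nn hE l) (hmd hE h)
  exact h1

theorem Hf_law : mar (Hf Q l P a b) (fun x => (((a x.1.1).2, (b x.1.1).2), x.2)) =
    mar (FF Q l) (fun x => ((x.1.1, x.2), x.1.2)) := by
  have h1 := xat_law (P := He Q l P a b) (c := fun x => ((a x.1).2, (b x.1).2)) (P' := FF Q l)
    (c' := fun x => (x.1.1, x.2)) (fun x => x.1.2) (FF_nn hE l) (hme hE h)
  exact h1

theorem He_ent {α : Type} [Fintype α] (g : Ω → α) (k : α → U × U)
    (hk : ∀ ω, ((b ω).2, (a ω).2) = k (g ω)) :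
    ent (He Q l P a b) (fun x => (g x.1, x.2)) =
      ent P g + (hQ Q + hh Q l - aQ Q - hh Q (l + 1)) := by
  have h1 := xat_ent (P := P) (c := fun ω => ((b ω).2, (a ω).2)) (P' := FF Q l)
    (c' := fun x => (x.1.1, x.2)) (fun x => x.1.2) h.nn (FF_nn hE l) (hmd hE h) g k hk
  rw [FF_ent hE, FF_ent0 hE] at h1
  exact h1

theorem Hf_ent {α : Type} [Fintype α] (g : Ω × U → α) (k : α → U × U)
    (hk : ∀ x, ((a x.1).2, (b x.1).2) = k (g x)) :
    ent (Hf Q l P a b) (fun x => (g x.1, x.2)) =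
      ent (He Q l P a b) g + (hQ Q + hh Q l - aQ Q - hh Q (l + 1)) := by
  have h1 := xat_ent (P := He Q l P a b) (c := fun x => ((a x.1).2, (b x.1).2)) (P' := FF Q l)
    (c' := fun x => (x.1.1, x.2)) (fun x => x.1.2) (He_nn hE h) (FF_nn hE l) (hme hE h) g k hk
  rw [FF_ent hE, FF_ent0 hE] at h1
  exact h1

/-- the law of `(R, e)` is that of a chain of length `n + 1` -/
theorem Hf_Re : mar (Hf Q l P a b) (fun x => (R x.1.1, x.2)) =
    mar (PP Q (n + 1)) (fun x => (x.1, x.2.2)) := by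
  funext ⟨r, y⟩
  have h1 := att_mar2 (He Q l P a b) (fun x => ((a x.1).2, (b x.1).2))
    (ker (FF Q l) (fun x => (x.1.1, x.2)) (fun x => x.1.2)) (fun x => R x.1) r y
  have h2 : mar (Hf Q l P a b) (fun x => (R x.1.1, x.2)) (r, y) =
      ∑ d : U × U, mar (He Q l P a b) (fun x => (R x.1, ((a x.1).2, (b x.1).2))) (r, d) *
        ker (FF Q l) (fun x => (x.1.1, x.2)) (fun x => x.1.2) d y := h1
  have e1 : PP Q (n + 1) = nx Q (PP Q n) := rfl
  rw [h2, e1, (PP_lab hE n).nx_fresh hE, Fintype.sum_prod_type]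
  refine Finset.sum_congr rfl fun v _ => ?_
  have h3 : ∀ u, mar (He Q l P a b) (fun x => (R x.1, ((a x.1).2, (b x.1).2))) (r, (v, u)) =
      mar (PP Q n) (fun x => (x.1, x.2.2)) (r, v) * zp (nb Q) (l + 1) v u := by
    intro u
    have h4 := congrFun (He_fst hE h (fun ω => (R ω, ((a ω).2, (b ω).2)))) (r, (v, u))
    have h5 : mar P (fun ω => (R ω, ((a ω).2, (b ω).2))) (r, (v, u)) =
        mar P (fun ω => ((R ω, (a ω).2), (b ω).2)) ((r, v), u) :=
      mar_inj P (fun ω => ((R ω, (a ω).2), (b ω).2))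
        (e := fun y : ((U × U) × U) × U => (y.1.1, (y.1.2, y.2))) (fun y z hyz => by
          simp only [Prod.mk.injEq] at hyz
          exact Prod.ext (Prod.ext hyz.1 hyz.2.1) hyz.2.2) ((r, v), u)
    rw [← h.lu, ← h5]
    exact h4
  have h6 : ∀ u, zp (nb Q) (l + 1) v u *
      ker (FF Q l) (fun x => (x.1.1, x.2)) (fun x => x.1.2) (v, u) y =
        nb Q v y * zp (nb Q) l y u := by
    intro u
    unfold ker
    rw [FF_0z1 hE, FF_0z hE]
    show zp (nb Q) (l + 1) v u * (Q (v, y) * zp (nb Q) l y u /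
      (mm Q v * zp (nb Q) (l + 1) v u)) = _
    by_cases hz : zp (nb Q) (l + 1) v u = 0
    · rw [hz, zero_mul]
      have h7 := hz
      rw [zp_left] at h7
      exact ((Finset.sum_eq_zero_iff_of_nonneg fun c _ =>
        mul_nonneg (hE.nb_nn _ _) (kp_nn hE _ _ _)).1 h7 y (mem_univ y)).symm
    · show _ = Q (v, y) / mm Q v * zp (nb Q) l y u
      by_cases hv : mm Q v = 0
      · rw [hv]
        simp
      · field_simp
  have h8 : ∀ u, mar (He Q l P a b) (fun x => (R x.1, ((a x.1).2, (b x.1).2))) (r, (v, u)) *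
      ker (FF Q l) (fun x => (x.1.1, x.2)) (fun x => x.1.2) (v, u) y =
        mar (PP Q n) (fun x => (x.1, x.2.2)) (r, v) * nb Q v y * zp (nb Q) l y u := by
    intro u
    rw [h3, mul_assoc, h6]
    ring
  rw [Finset.sum_congr rfl fun u _ => h8 u, ← Finset.mul_sum]
  by_cases hy : mm Q y = 0
  · rw [nb_zero hE hy]
    ring
  · rw [kp_one hE l hy, mul_one]

theorem g2 : G2 Q n (l + 1) (Hf Q l P a b) (fun x => R x.1.1) (fun x => a x.1.1)
    (fun x => b x.1.1) (fun x => x.1.2) (fun x => x.2) where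
  nn := Hf_nn hE h
  tot := Hf_tot hE h
  la := by rw [← h.la]; exact Hf_fst2 hE h (fun ω => (R ω, a ω))
  lb := by rw [← h.lb]; exact Hf_fst2 hE h (fun ω => (R ω, b ω))
  sud := by
    intro x hx
    obtain ⟨h1, -⟩ := xat_ne_zero _ (He_nn hE h) (FF_nn hE l) hx
    obtain ⟨-, ω, h2, h3, h4⟩ := xat_ne_zero _ h.nn (FF_nn hE l) h1
    have h5 := (left_ne_zero_of_mul h2 : Q ω.1 ≠ 0)
    simp only [Prod.mk.injEq] at h3
    have h6 : ω.1 = ((b x.1.1).2, x.1.2) := Prod.ext h3.1 h4
    rw [h6] at h5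
    exact h5
  sve := by
    intro x hx
    obtain ⟨-, ω, h2, h3, h4⟩ := xat_ne_zero _ (He_nn hE h) (FF_nn hE l) hx
    have h5 := (left_ne_zero_of_mul h2 : Q ω.1 ≠ 0)
    simp only [Prod.mk.injEq] at h3
    have h6 : ω.1 = ((a x.1.1).2, x.2) := Prod.ext h3.1 h4
    rw [h6] at h5
    exact h5
  lue := by
    refine EE_swap hE ?_
    have h1 : mar (Hf Q l P a b) (fun x => (x.2, (b x.1.1).2)) =
        mar (mar (Hf Q l P a b) (fun x => (((a x.1.1).2, (b x.1.1).2), x.2)))
          (fun y => (y.2, y.1.2)) := by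
      funext a
      rw [mar_mar]
    rw [h1, Hf_law hE h]
    funext c
    rw [mar_mar]
    exact congrFun (FF_1z hE l) c
  ldv := by
    have h0 := Hf_fst hE h (fun x => (x.2, (a x.1).2))
    refine h0.trans ?_
    have h1 : mar (He Q l P a b) (fun x => (x.2, (a x.1).2)) =
        mar (mar (He Q l P a b) (fun x => (((b x.1).2, (a x.1).2), x.2)))
          (fun y => (y.2, y.1.2)) := by
      funext a
      rw [mar_mar]
    rw [h1, He_law hE h]
    funext c
    rw [mar_mar]
    exact congrFun (FF_1z hE l) c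
  ent := by
    have h1 := Hf_ent hE h (fun x => (((R x.1, a x.1), b x.1), x.2))
      (fun y => (y.1.1.2.2, y.1.2.2)) (fun _ => rfl)
    have h2 := He_ent hE h (fun ω => ((R ω, a ω), b ω)) (fun y => (y.2.2, y.1.2.2))
      (fun _ => rfl)
    have h3 : ent (Hf Q l P a b) (fun x => (R x.1.1, a x.1.1, b x.1.1, x.1.2, x.2)) =
        ent (Hf Q l P a b) (fun x => ((((R x.1.1, a x.1.1), b x.1.1), x.1.2), x.2)) :=
      ent_same _ fun x y => by
        simp only [Prod.mk.injEq]
        tauto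
    rw [h3, h1, h2, h.eA]
    have e : l + 1 - 1 = l := rfl
    rw [e]
    linarith
  e1 := by
    -- the entropy of `(R, v, b, d, e)`
    have h1 := Hf_ent hE h (fun x => (((R x.1, (a x.1).2), b x.1), x.2))
      (fun y => (y.1.1.2, y.1.2.2)) (fun _ => rfl)
    have h2 := He_ent hE h (fun ω => ((R ω, (a ω).2), b ω)) (fun y => (y.2.2, y.1.2))
      (fun _ => rfl)
    rw [h2, h.eB] at h1
    -- remove `v`
    have s1 := subm (Hf_nn hE h) (A := fun x => (((R x.1.1, b x.1.1), x.1.2), x.2))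
      (B := fun x => ((R x.1.1, (a x.1.1).2), x.2))
      (C := fun x => ((((R x.1.1, (a x.1.1).2), b x.1.1), x.1.2), x.2))
      (D := fun x => (R x.1.1, x.2)) (fun x y => by
        simp only [Prod.mk.injEq]
        tauto) (fun x y => by
        simp only [Prod.mk.injEq]
        tauto) (fun x y => by
        simp only [Prod.mk.injEq]
        tauto)
    -- remove `R`
    have s2 := subm (Hf_nn hE h) (A := fun x => (((b x.1.1).1, x.1.2, x.2), (b x.1.1).2))
      (B := fun x => (R x.1.1, b x.1.1))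
      (C := fun x => (((R x.1.1, b x.1.1), x.1.2), x.2))
      (D := fun x => b x.1.1) (fun x y => by
        simp only [Prod.ext_iff]
        tauto) (fun x y => by
        simp only [Prod.ext_iff]
        tauto) (fun x y => by
        simp only [Prod.ext_iff]
        tauto)
    -- the entropy of `(R, v, e)`
    have s3 := subm (Hf_nn hE h) (A := fun x => (R x.1.1, (a x.1.1).2))
      (B := fun x => ((a x.1.1).2, x.2))
      (C := fun x => ((R x.1.1, (a x.1.1).2), x.2))
      (D := fun x => (a x.1.1).2) (fun x y => by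
        simp only [Prod.mk.injEq]
        tauto) (fun x y => by
        simp only [Prod.mk.injEq]
        tauto) (fun x y => by
        simp only [Prod.mk.injEq]
        tauto)
    have t1 : ent (Hf Q l P a b) (fun x => (R x.1.1, x.2)) = hB Q (n + 1) := by
      unfold hB
      refine ent_law fun c => ?_
      rw [Hf_Re hE h]
    have t2 : ent (Hf Q l P a b) (fun x => (R x.1.1, b x.1.1)) = hP Q (n + (l + 1)) := by
      have := Hf_ent2 hE h (fun ω => (R ω, b ω))
      rw [this]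
      unfold hP
      refine ent_law fun c => ?_
      rw [h.lb, mar_id]
    have t3 : ent (Hf Q l P a b) (fun x => b x.1.1) = hQ Q := by
      have := Hf_ent2 hE h (fun ω => b ω)
      rw [this]
      have h5 : ent P (fun ω => b ω) = ent (mar P (fun ω => (R ω, b ω))) (fun y => y.2) := by
        rw [ent_mar]
      rw [h5, h.lb]
      exact (PP_lab hE (n + (l + 1))).ent_edge hE fun e => e
    have t4 : ent (Hf Q l P a b) (fun x => (R x.1.1, (a x.1.1).2)) = hB Q n := by
      have := Hf_ent2 hE h (fun ω => (R ω, (a ω).2))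
      rw [this]
      have h5 : ent P (fun ω => (R ω, (a ω).2)) =
          ent (mar P (fun ω => (R ω, a ω))) (fun y => (y.1, y.2.2)) := by
        rw [ent_mar]
      rw [h5, h.la]
      rfl
    have t5 : ent (Hf Q l P a b) (fun x => (a x.1.1).2) = aQ Q := by
      have := Hf_ent2 hE h (fun ω => (a ω).2)
      rw [this]
      have h5 : ent P (fun ω => (a ω).2) =
          ent (mar P (fun ω => (R ω, a ω))) (fun y => y.2.2) := by
        rw [ent_mar]
      rw [h5, h.la]
      unfold aQ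
      refine ent_law fun c => ?_
      rw [PP_v hE, mar_id]
    have t6 : ent (Hf Q l P a b) (fun x => ((a x.1.1).2, x.2)) = hQ Q := by
      have h5 : ent (Hf Q l P a b) (fun x => ((a x.1.1).2, x.2)) =
          ent (mar (Hf Q l P a b) (fun x => (((a x.1.1).2, (b x.1.1).2), x.2)))
            (fun y => (y.1.1, y.2)) := by
        rw [ent_mar]
      rw [h5, Hf_law hE h, ent_mar]
      have h6 : ent (FF Q l) (fun x => (x.1.1, x.1.2)) = hQ Q := by
        have h7 := FF_01 hE l
        unfold hQ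
        refine ent_law fun c => ?_
        rw [mar_id]
        exact congrFun h7 c
      exact h6
    rw [t1] at s1
    rw [t2, t3] at s2
    rw [t4, t6, t5] at s3
    have e : l + 1 - 1 = l := rfl
    rw [e]
    rw [h1] at s1
    linarith
  e2 := by
    have h1 := Hf_ent hE h (fun x => ((a x.1, (b x.1).2), x.2))
      (fun y => (y.1.1.2, y.1.2)) (fun _ => rfl)
    have h2 := He_ent hE h (fun ω => (a ω, (b ω).2)) (fun y => (y.2, y.1.2))
      (fun _ => rfl)
    rw [h2, h.eC] at h1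
    have s1 := subm (Hf_nn hE h) (A := fun x => (((a x.1.1).1, x.2, x.1.2), (a x.1.1).2))
      (B := fun x => (((b x.1.1).2, (a x.1.1).2), x.1.2))
      (C := fun x => (((a x.1.1, (b x.1.1).2), x.1.2), x.2))
      (D := fun x => (x.1.2, (a x.1.1).2)) (fun x y => by
        simp only [Prod.ext_iff]
        tauto) (fun x y => by
        simp only [Prod.mk.injEq]
        tauto) (fun x y => by
        simp only [Prod.mk.injEq]
        tauto)
    have t1 : ent (Hf Q l P a b) (fun x => (((b x.1.1).2, (a x.1.1).2), x.1.2)) =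
        hQ Q + hh Q l - aQ Q := by
      have h3 : ent (Hf Q l P a b) (fun x => (((b x.1.1).2, (a x.1.1).2), x.1.2)) =
          ent (He Q l P a b) (fun x => (((b x.1).2, (a x.1).2), x.2)) := by
        unfold ent
        rw [Hf_fst hE h (fun x => (((b x.1).2, (a x.1).2), x.2))]
      rw [h3, ← FF_ent hE l]
      refine ent_law fun c => ?_
      rw [He_law hE h]
    have t2 : ent (Hf Q l P a b) (fun x => (x.1.2, (a x.1.1).2)) = hh Q l := by
      have h3 : ent (Hf Q l P a b) (fun x => (x.1.2, (a x.1.1).2)) =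
          ent (He Q l P a b) (fun x => (x.2, (a x.1).2)) := by
        unfold ent
        rw [Hf_fst hE h (fun x => (x.2, (a x.1).2))]
      have h4 : ent (He Q l P a b) (fun x => (x.2, (a x.1).2)) =
          ent (mar (He Q l P a b) (fun x => (((b x.1).2, (a x.1).2), x.2)))
            (fun y => (y.2, y.1.2)) := by
        rw [ent_mar]
      rw [h3, h4, He_law hE h, ent_mar]
      unfold hh
      refine ent_law fun c => ?_
      rw [mar_id]
      exact congrFun (FF_1z hE l) c
    rw [t1, t2, h1] at s1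
    have e : l + 1 - 1 = l := rfl
    rw [e]
    linarith

end two

theorem gBaseStmt : GBaseStmt := by
  intro U _ _ Q hE n L hL
  obtain ⟨l, rfl⟩ : ∃ l, L = l + 1 := ⟨L - 1, by omega⟩
  exact ⟨_, inferInstance, _, _, _, _, _, _, g2 hE (g1 hE n (l + 1))⟩

end Vale.Agent.P050.H546
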