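import Vale.Agent.P050.H546.Spec2

/-!
Two chains from a common rung, with a walk of length 3 between their ends.
-/

set_option linter.unusedSectionVars false

namespace Vale.Agent.P050.H546

open Finset Vale.Agent.P050.Cart Vale.Agent.P050.Join Vale.Agent.P050.M18

variable {U : Type} [Fintype U] [DecidableEq U] {Q : U × U → ℝ} (hE : Edge Q) (n : ℕ)

/-- the chain of length `n` and a walk of length 3 -/
noncomputable def Pc (Q : U × U → ℝ) (n : ℕ) :
    ((((U × U) × (U × U)) × U) × U) × U → ℝ := a3 Q (PP Q n) (fun x => x.2.2)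

/-- the second chain -/
noncomputable def Pd (Q : U × U → ℝ) (n : ℕ) :
    (((((U × U) × (U × U)) × U) × U) × U) × U → ℝ :=
  xat (Pc Q n) (fun x => (x.1.1.1.1, x.2)) (PP Q (n + 3)) (fun y => (y.1, y.2.2)) (fun y => y.2.1)

include hE

theorem PP_nn (x) : 0 ≤ PP Q n x := (PP_lab hE n).nn x

theorem PP_tot : ∑ x, PP Q n x = 1 := (PP_lab hE n).tot hE

theorem PP_v : mar (PP Q n) (fun x => x.2.2) = mm Q := by
  rw [(PP_lab hE n).mar_edge hE fun e => e.2, hE.mar_snd_Q]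

theorem Pc_nn (x) : 0 ≤ Pc Q n x := a3_nn hE (PP_nn hE n) (PP_v hE n) x

theorem Pc_tot : ∑ x, Pc Q n x = 1 := a3_tot hE (PP_nn hE n) (PP_v hE n) (PP_tot hE n)

theorem Pc_hm : mar (Pc Q n) (fun x => (x.1.1.1.1, x.2)) =
    mar (PP Q (n + 3)) (fun y => (y.1, y.2.2)) := by
  funext ⟨R, z⟩
  have h1 := a3_lab (Q := Q) (P := PP Q n) (v := fun x => x.2.2) (fun x => x.1) R z
  unfold Pc
  rw [h1]
  have l0 := PP_lab hE n
  have l1 := PP_lab hE (n + 1)
  have l2 := PP_lab hE (n + 2)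
  have e3 : PP Q (n + 3) = nx Q (PP Q (n + 2)) := rfl
  have e2 : PP Q (n + 2) = nx Q (PP Q (n + 1)) := rfl
  have e1 : PP Q (n + 1) = nx Q (PP Q n) := rfl
  rw [e3, l2.nx_fresh hE]
  refine Finset.sum_congr rfl fun y _ => ?_
  congr 1
  rw [e2, l1.nx_fresh hE]
  refine Finset.sum_congr rfl fun y' _ => ?_
  congr 1
  rw [e1, l0.nx_fresh hE]

theorem Pd_nn (x) : 0 ≤ Pd Q n x := xat_nonneg _ (Pc_nn hE n) (PP_nn hE (n + 3)) x

theorem Pd_tot : ∑ x, Pd Q n x = 1 := xat_total _ (Pc_nn hE n) (Pc_hm hE n) (Pc_tot hE n)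

theorem Pd_fst {α : Type} (g : ((((U × U) × (U × U)) × U) × U) × U → α) :
    mar (Pd Q n) (fun x => g x.1) = mar (Pc Q n) g := xat_fst _ (Pc_nn hE n) (Pc_hm hE n) g

theorem Pd_ent_fst {α : Type} [Fintype α] (g : ((((U × U) × (U × U)) × U) × U) × U → α) :
    ent (Pd Q n) (fun x => g x.1) = ent (Pc Q n) g := xat_ent_fst _ (Pc_nn hE n) (Pc_hm hE n) g

theorem PP_ent_swap (m : ℕ) : ent (PP Q m) (fun y => ((y.1, y.2.2), y.2.1)) = hP Q m :=
  ent_same _ fun x y => by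
    simp only [Prod.ext_iff]
    tauto

theorem Pd_ent {α : Type} [Fintype α] (g : ((((U × U) × (U × U)) × U) × U) × U → α)
    (k : α → (U × U) × U) (hk : ∀ x, (x.1.1.1.1, x.2) = k (g x)) :
    ent (Pd Q n) (fun x => (g x.1, x.2)) = ent (Pc Q n) g + (hP Q (n + 3) - hB Q (n + 3)) := by
  have h1 := xat_ent (P := Pc Q n) (c := fun x => (x.1.1.1.1, x.2)) (P' := PP Q (n + 3))
    (c' := fun y => (y.1, y.2.2)) (fun y => y.2.1) (Pc_nn hE n) (PP_nn hE (n + 3)) (Pc_hm hE n)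
    g k hk
  have h2 := PP_ent_swap hE (n + 3)
  have h3 : hB Q (n + 3) = ent (PP Q (n + 3)) (fun x => (x.1, x.2.2)) := rfl
  unfold Pd
  rw [h1, h2, h3]

theorem Pd_law : mar (Pd Q n) (fun x => ((x.1.1.1.1.1, x.1.2), x.2)) =
    mar (PP Q (n + 3)) (fun y => ((y.1, y.2.2), y.2.1)) := by
  have h := xat_law (P := Pc Q n) (c := fun x => (x.1.1.1.1, x.2)) (P' := PP Q (n + 3))
    (c' := fun y => (y.1, y.2.2)) (fun y => y.2.1) (PP_nn hE (n + 3)) (Pc_hm hE n)
  unfold Pd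
  exact h

theorem base : B1 Q n (Pd Q n) (fun x => x.1.1.1.1.1) (fun x => x.1.1.1.1.2)
    (fun x => (x.2, x.1.2)) where
  nn := Pd_nn hE n
  tot := Pd_tot hE n
  la := by
    have h1 := Pd_fst hE n (fun x => (x.1.1.1.1, x.1.1.1.2))
    have h2 := a3_fst (v := fun x => x.2.2) hE (PP_nn hE n) (PP_v hE n) (fun x => (x.1, x.2))
    refine h1.trans (h2.trans ?_)
    funext a
    exact mar_id _ a
  lb := by
    have h1 : mar (Pd Q n) (fun x => (x.1.1.1.1.1, (x.2, x.1.2))) =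
        mar (mar (Pd Q n) (fun x => ((x.1.1.1.1.1, x.1.2), x.2)))
          (fun y => (y.1.1, (y.2, y.1.2))) := by
      funext a
      rw [mar_mar]
    rw [h1, Pd_law hE n]
    funext a
    rw [mar_mar]
    exact mar_id _ a
  luv := by
    have h1 := Pd_fst hE n (fun x => (x.2, x.1.1.1.2.2))
    refine h1.trans ?_
    have h2 : mar (Pc Q n) (fun x => (x.2, x.1.1.1.2.2)) =
        mar (mar (Pc Q n) (fun x => (((x.1.1.1.2.2, x.1.1.2), x.1.2), x.2)))
          (fun y => (y.2, y.1.1.1)) := by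
      funext a
      rw [mar_mar]
    have h3 := a3_W3 (v := fun x => x.2.2) hE (PP_nn hE n) (PP_v hE n)
    have h4 : mar (Pc Q n) (fun x => (((x.1.1.1.2.2, x.1.1.2), x.1.2), x.2)) = W3 Q := h3
    rw [h2, h4, W3_30 hE]
  ent := by
    have h1 := Pd_ent hE n (fun x => (x.1.1.1, x.2)) (fun y => (y.1.1, y.2)) (fun _ => rfl)
    have h2 := a3_ge (v := fun x => x.2.2) hE (PP_nn hE n) (PP_v hE n) (fun x => x)
      (fun x => x.2.2) (fun _ => rfl)
    have h3 : ent (Pd Q n) (fun x => (x.1.1.1.1.1, x.1.1.1.1.2, (x.2, x.1.2))) =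
        ent (Pd Q n) (fun x => ((x.1.1.1.1, x.1.2), x.2)) := ent_same _ fun x y => by
      simp only [Prod.ext_iff]
      tauto
    have h4 : hP Q n = ent (PP Q n) (fun x => x) := rfl
    have h5 : ent (a3 Q (PP Q n) (fun x => x.2.2)) (fun x => (x.1.1.1, x.2)) =
      ent (Pc Q n) (fun x => (x.1.1.1, x.2)) := rfl
    rw [h5] at h2
    rw [h3, h1, h4]
    linarith
  e1 := by
    have h0 := subm (Pd_nn hE n) (A := fun x => (x.1.2, x.1.1.1.1.2.2, x.2))
      (B := fun x => ((x.1.1.1.1.1, x.1.2), x.2))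
      (C := fun x => (((x.1.1.1.1.1, x.1.1.1.1.2.2), x.1.2), x.2))
      (D := fun x => (x.2, x.1.2)) (fun x y => by
        simp only [Prod.mk.injEq]
        tauto) (fun x y => by
        simp only [Prod.mk.injEq]
        tauto) (fun x y => by
        simp only [Prod.mk.injEq]
        tauto)
    have h1 := Pd_ent hE n (fun x => ((x.1.1.1.1, x.1.1.1.2.2), x.2)) (fun y => (y.1.1, y.2))
      (fun _ => rfl)
    have h2 := a3_ge (v := fun x => x.2.2) hE (PP_nn hE n) (PP_v hE n) (fun x => (x.1, x.2.2))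
      (fun y => y.2) (fun _ => rfl)
    have h3 : ent (PP Q n) (fun x => (x.1, x.2.2)) = hB Q n := rfl
    have h4 : ent (a3 Q (PP Q n) (fun x => x.2.2))
        (fun x => ((x.1.1.1.1, x.1.1.1.2.2), x.2)) =
      ent (Pc Q n) (fun x => ((x.1.1.1.1, x.1.1.1.2.2), x.2)) := rfl
    have h5 : ent (Pd Q n) (fun x => ((x.1.1.1.1.1, x.1.2), x.2)) = hP Q (n + 3) := by
      rw [← PP_ent_swap hE (n + 3)]
      refine ent_law fun a => ?_
      rw [Pd_law hE n]
    have h6 : ent (Pd Q n) (fun x => (x.2, x.1.2)) = hQ Q := by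
      have h7 : ent (Pd Q n) (fun x => (x.2, x.1.2)) =
          ent (mar (Pd Q n) (fun x => ((x.1.1.1.1.1, x.1.2), x.2))) (fun y => (y.2, y.1.2)) := by
        rw [ent_mar]
      rw [h7, Pd_law hE n, ent_mar]
      exact (PP_lab hE (n + 3)).ent_edge hE fun e => e
    rw [h3, h4] at h2
    rw [h5, h6, h1] at h0
    linarith
  e2 := by
    have h1 := Pd_ent_fst hE n (fun x => (x.2, x.1.1.1.2.2, x.1.1.1.2.1))
    have h2 := a3_ge (v := fun x => x.2.2) hE (PP_nn hE n) (PP_v hE n) (fun x => x.2)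
      (fun y => y.2) (fun _ => rfl)
    have h3 : ent (PP Q n) (fun x => x.2) = hQ Q := (PP_lab hE n).ent_edge hE fun e => e
    have h4 : ent (a3 Q (PP Q n) (fun x => x.2.2)) (fun x => (x.1.1.1.2, x.2)) =
        ent (Pc Q n) (fun x => (x.2, x.1.1.1.2.2, x.1.1.1.2.1)) :=
      ent_same (Pc Q n) fun x y => by
        simp only [Prod.ext_iff]
        tauto
    rw [h3, h4] at h2
    have h5 : ent (Pd Q n) (fun x => (x.1.2, x.1.1.1.1.2.2, x.1.1.1.1.2.1)) =
      ent (Pc Q n) (fun x => (x.2, x.1.1.1.2.2, x.1.1.1.2.1)) := h1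
    show _ ≤ ent (Pd Q n) (fun x => (x.1.2, x.1.1.1.1.2.2, x.1.1.1.1.2.1))
    rw [h5]
    linarith

omit hE

theorem baseStmt : BaseStmt := by
  intro U _ _ Q hE n
  exact ⟨_, inferInstance, Pd Q n, _, _, _, base hE n⟩

end Vale.Agent.P050.H546
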