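import Vale.Agent.P050.H546.GSpec

/-!
Walks of length `j`.
-/

set_option linter.unusedSectionVars false

namespace Vale.Agent.P050.H546

open Finset Vale.Agent.P050.Cart Vale.Agent.P050.Join Vale.Agent.P050.M18

variable {U : Type} [Fintype U] [DecidableEq U] {Q : U × U → ℝ} (hE : Edge Q)

include hE

theorem kp_nn (j : ℕ) (x z : U) : 0 ≤ zp (nb Q) j x z := zp_nonneg hE.nb_nn j x z

theorem nb_zero {c z : U} (hz : mm Q z = 0) : nb Q c z = 0 := by
  unfold nb
  rw [hE.sym, hE.mm_zero hz]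
  simp

theorem kp_zero (j : ℕ) {x z : U} (hx : mm Q x ≠ 0) (hz : mm Q z = 0) :
    zp (nb Q) j x z = 0 := by
  cases j with
  | zero =>
    show (if x = z then (1 : ℝ) else 0) = 0
    rw [if_neg]
    rintro rfl
    exact hx hz
  | succ j =>
    show ∑ c, zp (nb Q) j x c * nb Q c z = 0
    refine Finset.sum_eq_zero fun c _ => ?_
    rw [nb_zero hE hz, mul_zero]

theorem kp_one (j : ℕ) {x : U} (hx : mm Q x ≠ 0) : ∑ z, zp (nb Q) j x z = 1 := by
  induction j with
  | zero =>
    show ∑ z, (if x = z then (1 : ℝ) else 0) = 1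
    simp
  | succ j ih =>
    show ∑ z, ∑ c, zp (nb Q) j x c * nb Q c z = 1
    rw [Finset.sum_comm, ← ih]
    refine Finset.sum_congr rfl fun c _ => ?_
    rw [← Finset.mul_sum]
    by_cases hc : mm Q c = 0
    · rw [kp_zero hE j hx hc, zero_mul]
    · rw [hE.nb_one hc, mul_one]

theorem kp_rev (j : ℕ) (x z : U) : mm Q x * zp (nb Q) j x z = mm Q z * zp (nb Q) j z x := by
  induction j generalizing z with
  | zero =>
    show mm Q x * (if x = z then (1 : ℝ) else 0) = mm Q z * (if z = x then (1 : ℝ) else 0)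
    by_cases h : x = z
    · subst h; rfl
    · rw [if_neg h, if_neg (fun h' => h h'.symm)]; simp
  | succ j ih =>
    rw [zp_left (nb Q) j z x]
    show mm Q x * ∑ c, zp (nb Q) j x c * nb Q c z = _
    rw [Finset.mul_sum, Finset.mul_sum]
    refine Finset.sum_congr rfl fun c _ => ?_
    have h1 := ih c
    have h2 := hE.mm_mul_nb c z
    have h3 := hE.mm_mul_nb z c
    have h4 := hE.sym c z
    calc mm Q x * (zp (nb Q) j x c * nb Q c z) = (mm Q x * zp (nb Q) j x c) * nb Q c z := by ring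
      _ = (mm Q c * nb Q c z) * zp (nb Q) j c x := by rw [h1]; ring
      _ = (mm Q z * nb Q z c) * zp (nb Q) j c x := by rw [h2, h3, h4]
      _ = _ := by ring

theorem EE_nn (j : ℕ) (x : U × U) : 0 ≤ EE Q j x := mul_nonneg (hE.mm_nn _) (kp_nn hE _ _ _)

theorem mm_sum : ∑ x, mm Q x = 1 := by
  rw [← hE.tot, Fintype.sum_prod_type]
  rfl

theorem EE_fst (j : ℕ) (x : U) : ∑ z, EE Q j (x, z) = mm Q x := by
  show ∑ z, mm Q x * zp (nb Q) j x z = mm Q x
  rw [← Finset.mul_sum]
  by_cases hx : mm Q x = 0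
  · rw [hx, zero_mul]
  · rw [kp_one hE j hx, mul_one]

theorem EE_tot (j : ℕ) : ∑ x, EE Q j x = 1 := by
  rw [Fintype.sum_prod_type, ← mm_sum hE]
  exact Finset.sum_congr rfl fun x _ => EE_fst hE j x

theorem EE_sym (j : ℕ) (x z : U) : EE Q j (x, z) = EE Q j (z, x) := kp_rev hE j x z

theorem EE_swap {Ω : Type} [Fintype Ω] {P : Ω → ℝ} {f g : Ω → U} {j : ℕ}
    (h : mar P (fun ω => (f ω, g ω)) = EE Q j) : mar P (fun ω => (g ω, f ω)) = EE Q j := by
  funext ⟨x, z⟩
  have h3 : mar P (fun ω => (g ω, f ω)) (x, z) = mar P (fun ω => (f ω, g ω)) (z, x) :=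
    mar_inj P (fun ω => (f ω, g ω)) (e := fun y : U × U => (y.2, y.1)) (fun a b hab => by
      simp only [Prod.mk.injEq] at hab
      exact Prod.ext hab.2 hab.1) (z, x)
  rw [h3, h]
  exact EE_sym hE j z x

theorem FF_one (j : ℕ) (e : U × U) (he : Q e ≠ 0) : ∑ z, zp (nb Q) j e.2 z = 1 :=
  kp_one hE j (hE.mm_ne (x := e.1) (y := e.2) he).2

theorem FF_nn (j : ℕ) (x) : 0 ≤ FF Q j x := att_nonneg hE.nn (kp_nn hE j) x

theorem FF_tot (j : ℕ) : ∑ x, FF Q j x = 1 := att_total hE.tot (FF_one hE j)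

/-- the first edge -/
theorem FF_01 (j : ℕ) : mar (FF Q j) (fun x => x.1) = Q := by
  have h := mar_att_fst (P := Q) (f := fun e => e.2) (K := zp (nb Q) j) (FF_one hE j) (fun e => e)
  funext a
  have h2 := congrFun h a
  rw [mar_id] at h2
  exact h2

/-- the second vertex and the end -/
theorem FF_1z (j : ℕ) : mar (FF Q j) (fun x => (x.1.2, x.2)) = EE Q j := by
  funext ⟨y, z⟩
  have h := mar_att (P := Q) (f := fun e => e.2) (K := zp (nb Q) j) (fun e => e.2) (fun y => y)
    (fun _ => rfl) y z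
  have h2 : mar (FF Q j) (fun x => (x.1.2, x.2)) (y, z) = mar Q (fun e => e.2) y *
      zp (nb Q) j y z := h
  rw [h2, hE.mar_snd_Q]
  rfl

/-- the ends -/
theorem FF_0z (j : ℕ) : mar (FF Q j) (fun x => (x.1.1, x.2)) = EE Q (j + 1) := by
  funext ⟨x, z⟩
  rw [mar_drop]
  show ∑ y, Q (x, y) * zp (nb Q) j y z = mm Q x * zp (nb Q) (j + 1) x z
  rw [zp_left, Finset.mul_sum]
  refine Finset.sum_congr rfl fun y _ => ?_
  rw [← hE.mm_mul_nb x y]
  ring

/-- the ends and the second vertex -/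
theorem FF_0z1 (j : ℕ) (x y z : U) : mar (FF Q j) (fun x => ((x.1.1, x.2), x.1.2)) ((x, z), y) =
    Q (x, y) * zp (nb Q) j y z := by
  have := mar_inj (FF Q j) (fun x => x) (e := fun x : (U × U) × U => ((x.1.1, x.2), x.1.2))
    (fun a b hab => by
      simp only [Prod.mk.injEq] at hab
      exact Prod.ext (Prod.ext hab.1.1 hab.2) hab.1.2) ((x, y), z)
  rw [mar_id] at this
  exact this

theorem FF_ent (j : ℕ) : ent (FF Q j) (fun x => ((x.1.1, x.2), x.1.2)) =
    hQ Q + hh Q j - aQ Q := by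
  have h1 := ent_att (P := Q) (f := fun e => e.2) (K := zp (nb Q) j) hE.nn (kp_nn hE j)
    (FF_one hE j) (fun e => e) (fun e => e.2) (fun _ => rfl)
  have e1 : ent (att Q (fun e => e.2) (zp (nb Q) j)) (fun x => (x.1.2, x.2)) = hh Q j := by
    unfold hh
    refine ent_law fun a => ?_
    have := congrFun (FF_1z hE j) a
    rw [mar_id]
    exact this
  have e2 : ent Q (fun e => e) = hQ Q := rfl
  have e3 : ent (FF Q j) (fun x => ((x.1.1, x.2), x.1.2)) =
      ent (att Q (fun e => e.2) (zp (nb Q) j)) (fun x => (x.1, x.2)) :=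
    ent_same (FF Q j) fun x y => by
      simp only [Prod.ext_iff]
      tauto
  rw [e1, e2, hE.ent_snd] at h1
  rw [e3]
  linarith

theorem FF_ent0 (j : ℕ) : ent (FF Q j) (fun x => (x.1.1, x.2)) = hh Q (j + 1) := by
  unfold hh
  refine ent_law fun a => ?_
  rw [FF_0z hE j, mar_id]

/-- the law of the last vertex of a chain -/
theorem PPL (n L : ℕ) (R : U × U) (z : U) : mar (PP Q (n + L)) (fun x => (x.1, x.2.2)) (R, z) =
    ∑ y, mar (PP Q n) (fun x => (x.1, x.2.2)) (R, y) * zp (nb Q) L y z := by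
  induction L generalizing z with
  | zero =>
    show mar (PP Q n) (fun x => (x.1, x.2.2)) (R, z) =
      ∑ y, mar (PP Q n) (fun x => (x.1, x.2.2)) (R, y) * (if y = z then (1 : ℝ) else 0)
    simp
  | succ L ih =>
    have e1 : PP Q (n + (L + 1)) = nx Q (PP Q (n + L)) := rfl
    rw [e1, (PP_lab hE (n + L)).nx_fresh hE]
    simp only [ih]
    show _ = ∑ y, mar (PP Q n) (fun x => (x.1, x.2.2)) (R, y) *
      ∑ c, zp (nb Q) L y c * nb Q c z
    simp only [Finset.sum_mul, Finset.mul_sum]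
    rw [Finset.sum_comm]
    exact Finset.sum_congr rfl fun y _ => Finset.sum_congr rfl fun c _ => by ring

end Vale.Agent.P050.H546
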