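import Vale.Agent.P050.H546.Xat

/-!
Walks of length 3, and attaching such a walk.
-/

set_option linter.unusedSectionVars false

namespace Vale.Agent.P050.H546

open Finset Vale.Agent.P050.Cart Vale.Agent.P050.Join Vale.Agent.P050.M18

variable {U : Type} [Fintype U]

/-- the law of a walk of length 3 -/
noncomputable def W3 (Q : U × U → ℝ) : ((U × U) × U) × U → ℝ := att (C3 Q) (fun x => x.2) (nb Q)

/-- the entropy of the ends of a walk of length 3 -/
noncomputable def h3Q (Q : U × U → ℝ) : ℝ := ent (W3 Q) (fun x => (x.1.1.1, x.2))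

variable {Q : U × U → ℝ} (hE : Edge Q)

theorem att_nb_ne {Ω : Type} [Fintype Ω] {P : Ω → ℝ} {f : Ω → U} {x : Ω × U}
    (h : att P f (nb Q) x ≠ 0) : P x.1 ≠ 0 ∧ Q (f x.1, x.2) ≠ 0 := by
  unfold att at h
  refine ⟨left_ne_zero_of_mul h, ?_⟩
  have h2 := right_ne_zero_of_mul h
  unfold nb at h2
  exact (div_ne_zero_iff.1 h2).1

include hE

theorem nb_one_att {Ω : Type} [Fintype Ω] {P : Ω → ℝ} {f : Ω → U} (x : Ω × U)
    (h : att P f (nb Q) x ≠ 0) : ∑ z, nb Q x.2 z = 1 :=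
  hE.nb_one (hE.mm_ne (x := f x.1) (y := x.2) (att_nb_ne h).2).2

theorem C3_one (x : (U × U) × U) (h : C3 Q x ≠ 0) : ∑ z, nb Q x.2 z = 1 := nb_one_att hE x h

theorem W3_nn (x) : 0 ≤ W3 Q x := att_nonneg hE.C3_nn hE.nb_nn x

theorem W3_tot : ∑ x, W3 Q x = 1 := att_total hE.C3_tot (C3_one hE)

theorem W3_sym (a b c d : U) : W3 Q (((a, b), c), d) = W3 Q (((d, c), b), a) := by
  unfold W3 C3 att nb
  simp only
  rw [hE.sym d c, hE.sym c b, hE.sym b a]
  ring

/-- reversal -/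
def rv (x : ((U × U) × U) × U) : ((U × U) × U) × U := (((x.2, x.1.2), x.1.1.2), x.1.1.1)

/-- reversal, as a bijection -/
def rvE : ((U × U) × U) × U ≃ ((U × U) × U) × U := ⟨rv, rv, fun _ => rfl, fun _ => rfl⟩

theorem W3_rv {α : Type} (g : ((U × U) × U) × U → α) :
    mar (W3 Q) (fun x => g (rv x)) = mar (W3 Q) g := by
  classical
  funext a
  unfold mar
  rw [← (rvE (U := U)).sum_comp (fun x => if g x = a then W3 Q x else 0)]
  refine Finset.sum_congr rfl fun x _ => ?_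
  have e : (rvE (U := U)) x = rv x := rfl
  rw [e]
  have e2 : W3 Q (rv x) = W3 Q x := by
    obtain ⟨⟨⟨a, b⟩, c⟩, d⟩ := x
    exact (W3_sym hE a b c d).symm
  rw [e2]

theorem W3_fst {α : Type} (g : (U × U) × U → α) :
    mar (W3 Q) (fun x => g x.1) = mar (C3 Q) g := mar_att_fst (C3_one hE) g

/-- the first edge -/
theorem W3_01 : mar (W3 Q) (fun x => x.1.1) = Q := by
  rw [W3_fst hE (fun x => x.1)]
  exact hE.C3_12

/-- the ends of the first cherry -/
theorem W3_02 : mar (W3 Q) (fun x => (x.1.1.1, x.1.2)) =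
    mar (C3 Q) (fun x => (x.1.1, x.2)) := W3_fst hE (fun x => (x.1.1, x.2))

/-- the ends of the second cherry -/
theorem W3_13 : mar (W3 Q) (fun x => (x.1.1.2, x.2)) =
    mar (C3 Q) (fun x => (x.1.1, x.2)) := by
  have h1 := W3_rv hE (fun x => (x.1.2, x.1.1.1))
  have h2 : (fun x : ((U × U) × U) × U => ((rv x).1.2, (rv x).1.1.1)) =
      fun x => (x.1.1.2, x.2) := rfl
  rw [h2] at h1
  rw [h1, W3_fst hE (fun x => (x.2, x.1.1))]
  funext ⟨x, z⟩
  have h3 : mar (C3 Q) (fun x => (x.2, x.1.1)) (x, z) =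
      mar (C3 Q) (fun x => (x.1.1, x.2)) (z, x) :=
    mar_inj (C3 Q) (fun x => (x.1.1, x.2)) (e := fun y : U × U => (y.2, y.1)) (fun a b hab => by
      simp only [Prod.mk.injEq] at hab
      exact Prod.ext hab.2 hab.1) (z, x)
  rw [h3, hE.C2_sym]

/-- the last edge -/
theorem W3_32 : mar (W3 Q) (fun x => (x.2, x.1.2)) = Q := by
  have h1 := W3_rv hE (fun x => x.1.1)
  have h2 : (fun x : ((U × U) × U) × U => (rv x).1.1) = fun x => (x.2, x.1.2) := rfl
  rw [h2] at h1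
  rw [h1, W3_01 hE]

/-- the ends, exchanged -/
theorem W3_30 : mar (W3 Q) (fun x => (x.2, x.1.1.1)) = mar (W3 Q) (fun x => (x.1.1.1, x.2)) :=
  W3_rv hE (fun x => (x.1.1.1, x.2))

theorem W3_0 : mar (W3 Q) (fun x => x.1.1.1) = mm Q := by
  have h1 : mar (W3 Q) (fun x => x.1.1.1) = mar (mar (W3 Q) (fun x => x.1.1)) (fun e => e.1) := by
    funext a
    rw [mar_mar]
  rw [h1, W3_01 hE, hE.mar_fst_Q]

theorem W3_3 : mar (W3 Q) (fun x => x.2) = mm Q := by
  have h1 := W3_rv hE (fun x => x.1.1.1)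
  have h2 : (fun x : ((U × U) × U) × U => (rv x).1.1.1) = fun x => x.2 := rfl
  rw [h2] at h1
  rw [h1, W3_0 hE]

theorem W3_ent : ent (W3 Q) (fun x => x) = 3 * hQ Q - 2 * aQ Q := by
  have h1 := ent_att (P := C3 Q) (f := fun x => x.2) (K := nb Q) hE.C3_nn hE.nb_nn (C3_one hE)
    (fun x => x) (fun x => x.2) (fun _ => rfl)
  have e1 : ent (att (C3 Q) (fun x => x.2) (nb Q)) (fun x => (x.1.2, x.2)) = hQ Q := by
    have h3 := mar_att (P := C3 Q) (f := fun x => x.2) (K := nb Q) (fun x => x.2) (fun y => y)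
      (fun _ => rfl)
    unfold hQ
    refine ent_law fun a => ?_
    obtain ⟨y, z⟩ := a
    rw [h3, mar_id]
    have h4 : mar (C3 Q) (fun x => x.2) y = mm Q y := by
      have h5 : mar (C3 Q) (fun x => x.2) = mar (mar (C3 Q) (fun x => (x.1.2, x.2)))
          (fun e => e.2) := by
        funext a
        rw [mar_mar]
      rw [h5, hE.C3_23, hE.mar_snd_Q]
    rw [h4]
    exact hE.mm_mul_nb y z
  have e2 : ent (C3 Q) (fun x => x.2) = aQ Q := by
    have h5 : ent (C3 Q) (fun x => x.2) = ent (mar (C3 Q) (fun x => (x.1.2, x.2)))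
        (fun e => e.2) := by
      rw [ent_mar]
    rw [h5, hE.C3_23, hE.ent_snd]
  have e3 := Lab.C3_ent hE
  rw [e1, e2, e3] at h1
  have e4 : ent (att (C3 Q) (fun x => x.2) (nb Q)) (fun x => (x.1, x.2)) =
    ent (W3 Q) (fun x => x) := rfl
  rw [e4] at h1
  linarith

/-- the entropy without the second inner vertex -/
theorem W3_ent2 : ent (W3 Q) (fun x => ((x.1.1.1, x.2), x.1.2)) = hQ Q + h2Q Q - aQ Q := by
  have h1 := ent_att (P := C3 Q) (f := fun x => x.2) (K := nb Q) hE.C3_nn hE.nb_nn (C3_one hE)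
    (fun x => (x.1.1, x.2)) (fun x => x.2) (fun _ => rfl)
  have e1 : ent (att (C3 Q) (fun x => x.2) (nb Q)) (fun x => (x.1.2, x.2)) = hQ Q := by
    have h2 := W3_32 hE
    have h3 : ent (W3 Q) (fun x => (x.1.2, x.2)) = ent (W3 Q) (fun x => (x.2, x.1.2)) :=
      ent_same _ fun x y => by
        simp only [Prod.mk.injEq]
        tauto
    have h4 : ent (W3 Q) (fun x => (x.2, x.1.2)) = hQ Q := by
      unfold hQ
      refine ent_law fun a => ?_
      rw [h2, mar_id]
    rw [h4] at h3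
    exact h3
  have e2 : ent (C3 Q) (fun x => x.2) = aQ Q := by
    have h5 : ent (C3 Q) (fun x => x.2) = ent (mar (C3 Q) (fun x => (x.1.2, x.2)))
        (fun e => e.2) := by
      rw [ent_mar]
    rw [h5, hE.C3_23, hE.ent_snd]
  have e3 : ent (C3 Q) (fun x => (x.1.1, x.2)) = h2Q Q := rfl
  rw [e1, e2, e3] at h1
  have e4 : ent (att (C3 Q) (fun x => x.2) (nb Q)) (fun x => ((x.1.1.1, x.1.2), x.2)) =
      ent (W3 Q) (fun x => ((x.1.1.1, x.2), x.1.2)) := by
    refine ent_same (W3 Q) fun x y => ?_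
    simp only [Prod.mk.injEq]
    tauto
  have e5 : ent (att (C3 Q) (fun x => x.2) (nb Q)) (fun x => ((fun x : (U × U) × U =>
    (x.1.1, x.2)) x.1, x.2)) = ent (att (C3 Q) (fun x => x.2) (nb Q))
      (fun x => ((x.1.1.1, x.1.2), x.2)) := rfl
  rw [e5, e4] at h1
  linarith

/-- the entropy without the first inner vertex -/
theorem W3_ent1 : ent (W3 Q) (fun x => ((x.1.1.1, x.2), x.1.1.2)) = hQ Q + h2Q Q - aQ Q := by
  rw [← W3_ent2 hE]
  have h1 := W3_rv hE (fun x => ((x.1.1.1, x.2), x.1.2))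
  have h2 : (fun x : ((U × U) × U) × U => (((rv x).1.1.1, (rv x).2), (rv x).1.2)) =
      fun x => ((x.2, x.1.1.1), x.1.1.2) := rfl
  rw [h2] at h1
  have h3 : ent (W3 Q) (fun x => ((x.1.1.1, x.2), x.1.1.2)) =
      ent (W3 Q) (fun x => ((x.2, x.1.1.1), x.1.1.2)) := ent_same _ fun x y => by
    simp only [Prod.mk.injEq]
    tauto
  rw [h3]
  unfold ent
  rw [h1]

omit hE

/-- attach a walk of length 3 at `v` -/
noncomputable def a3 {Ω : Type} (Q : U × U → ℝ) (P : Ω → ℝ) (v : Ω → U) :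
    ((Ω × U) × U) × U → ℝ :=
  att (att (att P v (nb Q)) (fun x => x.2) (nb Q)) (fun x => x.2) (nb Q)

variable {Ω : Type} [Fintype Ω] {P : Ω → ℝ} {v : Ω → U} (hP : ∀ ω, 0 ≤ P ω)
  (hv : mar P v = mm Q)

include hE hP hv

theorem v_ne (ω : Ω) (h : P ω ≠ 0) : mm Q (v ω) ≠ 0 := by
  rw [← hv]
  exact mar_ne_zero hP v h

theorem v_one (ω : Ω) (h : P ω ≠ 0) : ∑ z, nb Q (v ω) z = 1 := hE.nb_one (v_ne hE hP hv ω h)

theorem a3_nn (x) : 0 ≤ a3 Q P v x :=
  att_nonneg (att_nonneg (att_nonneg hP hE.nb_nn) hE.nb_nn) hE.nb_nn x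

theorem a3_tot (h1 : ∑ ω, P ω = 1) : ∑ x, a3 Q P v x = 1 :=
  att_total (att_total (att_total h1 (v_one hE hP hv)) (nb_one_att hE)) (nb_one_att hE)

theorem a3_fst {α : Type} (g : Ω → α) : mar (a3 Q P v) (fun x => g x.1.1.1) = mar P g := by
  have h1 := mar_att_fst (P := att (att P v (nb Q)) (fun x => x.2) (nb Q)) (f := fun x => x.2)
    (K := nb Q) (nb_one_att hE) (fun x => g x.1.1)
  have h2 := mar_att_fst (P := att P v (nb Q)) (f := fun x => x.2)
    (K := nb Q) (nb_one_att hE) (fun x => g x.1)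
  have h3 := mar_att_fst (P := P) (f := v) (K := nb Q) (v_one hE hP hv) g
  exact h1.trans (h2.trans h3)

theorem a3_ne {x : ((Ω × U) × U) × U} (h : a3 Q P v x ≠ 0) : P x.1.1.1 ≠ 0 :=
  (att_nb_ne (att_nb_ne (att_nb_ne h).1).1).1

/-- the law of the attached walk -/
theorem a3_W3 : mar (a3 Q P v) (fun x => (((v x.1.1.1, x.1.1.2), x.1.2), x.2)) = W3 Q := by
  funext ⟨⟨⟨a, b⟩, c⟩, d⟩
  have h1 := mar_att (P := att (att P v (nb Q)) (fun x => x.2) (nb Q)) (f := fun x => x.2)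
    (K := nb Q) (fun x => ((v x.1.1, x.1.2), x.2)) (fun y => y.2) (fun _ => rfl) ((a, b), c) d
  have h2 := mar_att (P := att P v (nb Q)) (f := fun x => x.2)
    (K := nb Q) (fun x => (v x.1, x.2)) (fun y => y.2) (fun _ => rfl) (a, b) c
  have h3 := mar_att (P := P) (f := v) (K := nb Q) v (fun y => y) (fun _ => rfl) a b
  unfold a3
  rw [h1, h2, h3, hv]
  unfold W3 C3 att
  simp only
  rw [hE.mm_mul_nb]

/-- entropy with the whole walk -/
theorem a3_ent {α : Type} [Fintype α] (g : Ω → α) (k : α → U) (hk : ∀ ω, v ω = k (g ω)) :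
    ent (a3 Q P v) (fun x => (((g x.1.1.1, x.1.1.2), x.1.2), x.2)) =
      ent P g + 3 * (hQ Q - aQ Q) := by
  have n1 : ∀ x, 0 ≤ att P v (nb Q) x := att_nonneg hP hE.nb_nn
  have n2 : ∀ x, 0 ≤ att (att P v (nb Q)) (fun x => x.2) (nb Q) x := att_nonneg n1 hE.nb_nn
  -- laws of the successive edges
  have q1 : mar (att P v (nb Q)) (fun x => (v x.1, x.2)) = Q := by
    funext ⟨a, b⟩
    have := mar_att (P := P) (f := v) (K := nb Q) v (fun y => y) (fun _ => rfl) a b
    rw [this, hv]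
    exact hE.mm_mul_nb a b
  have m1 : mar (att P v (nb Q)) (fun x => x.2) = mm Q := by
    have : mar (att P v (nb Q)) (fun x => x.2) =
        mar (mar (att P v (nb Q)) (fun x => (v x.1, x.2))) (fun e => e.2) := by
      funext a
      rw [mar_mar]
    rw [this, q1, hE.mar_snd_Q]
  have q2 : mar (att (att P v (nb Q)) (fun x => x.2) (nb Q)) (fun x => (x.1.2, x.2)) = Q := by
    funext ⟨a, b⟩
    have := mar_att (P := att P v (nb Q)) (f := fun x => x.2) (K := nb Q) (fun x => x.2)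
      (fun y => y) (fun _ => rfl) a b
    rw [this, m1]
    exact hE.mm_mul_nb a b
  have m2 : mar (att (att P v (nb Q)) (fun x => x.2) (nb Q)) (fun x => x.2) = mm Q := by
    have : mar (att (att P v (nb Q)) (fun x => x.2) (nb Q)) (fun x => x.2) =
        mar (mar (att (att P v (nb Q)) (fun x => x.2) (nb Q)) (fun x => (x.1.2, x.2)))
          (fun e => e.2) := by
      funext a
      rw [mar_mar]
    rw [this, q2, hE.mar_snd_Q]
  have q3 : mar (a3 Q P v) (fun x => (x.1.2, x.2)) = Q := by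
    funext ⟨a, b⟩
    have := mar_att (P := att (att P v (nb Q)) (fun x => x.2) (nb Q)) (f := fun x => x.2)
      (K := nb Q) (fun x => x.2) (fun y => y) (fun _ => rfl) a b
    unfold a3
    rw [this, m2]
    exact hE.mm_mul_nb a b
  have eQ : ∀ {Ω' : Type} [Fintype Ω'] (P' : Ω' → ℝ) (f : Ω' → U × U), mar P' f = Q →
      ent P' f = hQ Q := by
    intro Ω' _ P' f hf
    unfold hQ
    refine ent_law fun a => ?_
    rw [hf, mar_id]
  have eM : ∀ {Ω' : Type} [Fintype Ω'] (P' : Ω' → ℝ) (f : Ω' → U), mar P' f = mm Q →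
      ent P' f = aQ Q := by
    intro Ω' _ P' f hf
    unfold aQ
    refine ent_law fun a => ?_
    rw [hf, mar_id]
  have h1 := ent_att (P := P) (f := v) (K := nb Q) hP hE.nb_nn (v_one hE hP hv) g k hk
  have h2 := ent_att (P := att P v (nb Q)) (f := fun x => x.2) (K := nb Q) n1 hE.nb_nn
    (nb_one_att hE) (fun x => (g x.1, x.2)) (fun y => y.2) (fun _ => rfl)
  have h3 := ent_att (P := att (att P v (nb Q)) (fun x => x.2) (nb Q)) (f := fun x => x.2)
    (K := nb Q) n2 hE.nb_nn (nb_one_att hE) (fun x => ((g x.1.1, x.1.2), x.2)) (fun y => y.2)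
    (fun _ => rfl)
  rw [eM P v hv, eQ _ _ q1] at h1
  rw [eM _ _ m1, eQ _ _ q2] at h2
  rw [eM _ _ m2] at h3
  have h4 : ent (att (att (att P v (nb Q)) (fun x => x.2) (nb Q)) (fun x => x.2) (nb Q))
      (fun x => (x.1.2, x.2)) = hQ Q := eQ _ _ q3
  rw [h4] at h3
  unfold a3
  linarith

/-- entropy with the end of the walk -/
theorem a3_ge {α : Type} [Fintype α] (g : Ω → α) (k : α → U) (hk : ∀ ω, v ω = k (g ω)) :
    ent P g + (h3Q Q - aQ Q) ≤ ent (a3 Q P v) (fun x => (g x.1.1.1, x.2)) := by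
  have h1 := a3_ent hE hP hv g k hk
  have h2 := subm (a3_nn hE hP hv) (A := fun x => (g x.1.1.1, x.2))
    (B := fun x => (((v x.1.1.1, x.1.1.2), x.1.2), x.2))
    (C := fun x => (((g x.1.1.1, x.1.1.2), x.1.2), x.2))
    (D := fun x => (v x.1.1.1, x.2)) (fun x y => by
      simp only [Prod.mk.injEq]
      tauto) (fun x y => by
      simp only [Prod.mk.injEq, hk]
      rintro ⟨h, h'⟩
      exact ⟨by rw [h], h'⟩) (fun x y => by
      simp only [Prod.mk.injEq]
      tauto)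
  have h3 := a3_W3 hE hP hv
  have e1 : ent (a3 Q P v) (fun x => (((v x.1.1.1, x.1.1.2), x.1.2), x.2)) =
      3 * hQ Q - 2 * aQ Q := by
    rw [← W3_ent hE]
    refine ent_law fun a => ?_
    rw [h3, mar_id]
  have e2 : ent (a3 Q P v) (fun x => (v x.1.1.1, x.2)) = h3Q Q := by
    unfold h3Q
    refine ent_law fun a => ?_
    have h4 : mar (a3 Q P v) (fun x => (v x.1.1.1, x.2)) a =
        mar (mar (a3 Q P v) (fun x => (((v x.1.1.1, x.1.1.2), x.1.2), x.2)))
          (fun x => (x.1.1.1, x.2)) a := by rw [mar_mar]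
    rw [h4, h3]
  rw [e1, e2, h1] at h2
  linarith

omit hE hP hv

/-- the law of a label and the end of the walk -/
theorem a3_lab {α : Type} [Fintype α] (g : Ω → α) (r : α) (z : U) :
    mar (a3 Q P v) (fun x => (g x.1.1.1, x.2)) (r, z) =
      ∑ y, (∑ y', (∑ y'', mar P (fun ω => (g ω, v ω)) (r, y'') * nb Q y'' y') * nb Q y' y) *
        nb Q y z := by
  unfold a3
  have h1 := att_mar2 (att (att P v (nb Q)) (fun x => x.2) (nb Q)) (fun x => x.2) (nb Q)
    (fun x => g x.1.1) r z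
  have h2 := fun y => att_mar2 (att P v (nb Q)) (fun x => x.2) (nb Q) (fun x => g x.1) r y
  have h3 := fun y => att_mar2 P v (nb Q) g r y
  rw [h1]
  refine Finset.sum_congr rfl fun y _ => ?_
  rw [h2]
  congr 1
  refine Finset.sum_congr rfl fun y' _ => ?_
  rw [h3]

end Vale.Agent.P050.H546
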