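import Vale.Agent.P050.M18.Main

/-!
Attaching a variable by the conditional law taken from another probability space.
-/

set_option linter.unusedSectionVars false

namespace Vale.Agent.P050.H546

open Finset Vale.Agent.P050.Cart Vale.Agent.P050.Join Vale.Agent.P050.M18

section xat

variable {Ω Ω' γ δ : Type} [Fintype Ω] [Fintype Ω'] [Fintype γ] [Fintype δ]

/-- attach a variable with the conditional law of `y` given `c'` in the space `(Ω', P')` -/
noncomputable def xat (P : Ω → ℝ) (c : Ω → δ) (P' : Ω' → ℝ) (c' : Ω' → δ) (y : Ω' → γ) :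
    Ω × γ → ℝ := att P c (ker P' c' y)

variable {P : Ω → ℝ} {c : Ω → δ} {P' : Ω' → ℝ} {c' : Ω' → δ} (y : Ω' → γ)
  (hP : ∀ ω, 0 ≤ P ω) (hP' : ∀ ω, 0 ≤ P' ω) (hm : mar P c = mar P' c')

include hP hm in
theorem xker_one (ω : Ω) (h0 : P ω ≠ 0) : ∑ b, ker P' c' y (c ω) b = 1 := by
  refine sum_ker c' y ?_
  rw [← hm]
  exact mar_ne_zero hP c h0

include hP hP' in
theorem xat_nonneg (x) : 0 ≤ xat P c P' c' y x := att_nonneg hP (fun _ _ => ker_nonneg hP' _ _ _ _) x

include hP hm in
theorem xat_total (h1 : ∑ ω, P ω = 1) : ∑ x, xat P c P' c' y x = 1 :=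
  att_total h1 fun ω h0 => xker_one y hP hm ω h0

include hP hm in
theorem xat_fst {α : Type} (g : Ω → α) : mar (xat P c P' c' y) (fun x => g x.1) = mar P g :=
  mar_att_fst (fun ω h0 => xker_one y hP hm ω h0) g

include hP hm in
theorem xat_ent_fst {α : Type} [Fintype α] (g : Ω → α) :
    ent (xat P c P' c' y) (fun x => g x.1) = ent P g :=
  ent_att_fst (fun ω h0 => xker_one y hP hm ω h0) g

include hP' hm in
theorem xat_law : mar (xat P c P' c' y) (fun x => (c x.1, x.2)) = mar P' (fun ω => (c' ω, y ω)) := by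
  funext ⟨d, u⟩
  have h := mar_att (P := P) (f := c) (K := ker P' c' y) c (fun d => d) (fun _ => rfl) d u
  unfold xat
  rw [h, hm]
  unfold ker
  by_cases h0 : mar P' c' d = 0
  · rw [h0]
    have := mar_fst P' c' y d
    rw [h0] at this
    rw [(Finset.sum_eq_zero_iff_of_nonneg fun u _ => mar_nonneg hP' _ _).1 this u (mem_univ u)]
    simp
  · field_simp

include hP hP' hm in
theorem xat_ent {α : Type} [Fintype α] (g : Ω → α) (k : α → δ) (hk : ∀ ω, c ω = k (g ω)) :
    ent (xat P c P' c' y) (fun x => (g x.1, x.2)) =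
      ent P g + (ent P' (fun ω => (c' ω, y ω)) - ent P' c') := by
  have h := ent_att (f := c) (K := ker P' c' y) hP (fun d b => ker_nonneg hP' c' y d b)
    (fun ω h0 => xker_one y hP hm ω h0) g k hk
  have e1 : ent (att P c (ker P' c' y)) (fun x => (c x.1, x.2)) =
      ent P' (fun ω => (c' ω, y ω)) := by
    unfold ent
    have := xat_law y hP' hm
    unfold xat at this
    rw [this]
  have e2 : ent P c = ent P' c' := by
    unfold ent
    rw [hm]
  rw [e1, e2] at h
  unfold xat
  linarith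

include hP hP' in
/-- the support -/
theorem xat_ne_zero {x : Ω × γ} (h : xat P c P' c' y x ≠ 0) :
    P x.1 ≠ 0 ∧ ∃ ω, P' ω ≠ 0 ∧ c' ω = c x.1 ∧ y ω = x.2 := by
  classical
  unfold xat att ker at h
  have h1 := left_ne_zero_of_mul h
  have h2 := (div_ne_zero_iff.1 (right_ne_zero_of_mul h)).1
  refine ⟨h1, ?_⟩
  unfold mar at h2
  obtain ⟨ω, -, hω⟩ := Finset.exists_ne_zero_of_sum_ne_zero h2
  have h3 : (c' ω, y ω) = (c x.1, x.2) := by
    by_contra hh
    rw [if_neg hh] at hω
    exact hω rfl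
  rw [if_pos h3] at hω
  simp only [Prod.mk.injEq] at h3
  exact ⟨ω, hω, h3.1, h3.2⟩

end xat

section att2

variable {Ω α β δ : Type} [Fintype Ω] [Fintype α] [Fintype β] [Fintype δ]

/-- the law of a function and the new variable -/
theorem att_mar2 (P : Ω → ℝ) (f : Ω → δ) (K : δ → β → ℝ) (g : Ω → α) (a : α) (z : β) :
    mar (att P f K) (fun x => (g x.1, x.2)) (a, z) =
      ∑ d, mar P (fun ω => (g ω, f ω)) (a, d) * K d z := by
  have h1 : mar (att P f K) (fun x => (g x.1, x.2)) =
      mar (mar (att P f K) (fun x => ((g x.1, f x.1), x.2))) (fun y => (y.1.1, y.2)) := by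
    funext a
    rw [mar_mar]
  rw [h1, mar_drop]
  refine Finset.sum_congr rfl fun d _ => ?_
  exact mar_att (P := P) (f := f) (K := K) (fun ω => (g ω, f ω)) (fun y => y.2) (fun _ => rfl)
    (a, d) z

end att2

end Vale.Agent.P050.H546
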